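import Vale.Agent.P305CV.Multi
import Vale.Agent.P305V.Diam

/-!
# Sparse covers at all scales form a family of padded covers
-/

namespace Vale.Agent.P305CV

open Vale.Agent.P305V Finset

/-- The edge relation of a list of edges. -/
def ER (G : List WE) (u v l : ℕ) : Prop := ∃ e ∈ G, Jn e u v ∧ e.2.2.1 = l

variable {G : List WE} {u x r : ℕ}

theorem ER.symm {l : ℕ} : ER G u x l → ER G x u l := fun ⟨e, h1, h2, h3⟩ => ⟨e, h1, h2.symm, h3⟩

theorem Wk.wn (h : Wk G u x r) : Wn (ER G) u x r := by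
  induction h with
  | refl => exact .refl _ _
  | step _ he hj ih => exact ih.trans (Wn.single ⟨_, he, hj, rfl⟩ le_rfl)

theorem Wk.trans {y r' : ℕ} (h : Wk G u x r) (h' : Wk G x y r') : Wk G u y (r + r') := by
  induction h' with
  | refl => exact h.mono (by omega)
  | step _ he hj ih => exact add_assoc r _ _ ▸ ih.step he hj

theorem wk_of_wn (h : Wn (ER G) u x r) : Wk G u x r := by
  induction h with
  | refl => exact .refl _
  | step he _ ih =>
    obtain ⟨e, h1, h2, rfl⟩ := he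
    simpa using ((Wk.refl 0).step h1 h2).trans ih

theorem Wk.symm (h : Wk G u x r) : Wk G x u r :=
  wk_of_wn (Wn.symm (E := ER G) (fun _ _ _ => ER.symm) h.wn)

theorem TL.wk {c : ℕ} {d : ℕ → ℕ} : ∀ {l : List Rec}, TL G c d l → ∀ v ∈ Cl.vs (c, l),
    Wk G c v (d v)
  | [], _, v, hv => by
    obtain rfl : v = c := by simpa [Cl.vs] using hv
    exact .refl _
  | r :: l, ⟨h1, _, h3, h4, h5, h6⟩, v, hv => by
    rcases mem_vs_cons.1 hv with rfl | hv
    · exact h6 ▸ (h1.wk _ h3).step h4 h5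
    · exact h1.wk v hv

theorem countP_eq_sum {β : Type} (p : β → Bool) : ∀ l : List β,
    l.countP p = ∑ j ∈ range l.length, if (l[j]?).any p = true then 1 else 0
  | [] => by simp
  | a :: l => by
    rw [List.length_cons, sum_range_succ', List.countP_cons, countP_eq_sum p l]
    simp

variable {b D L : ℕ} {vs : List ℕ} {cs : List (ℕ × Cl)}

/-- Two vertices of a cluster are close. -/
theorem MCov.near (h : MCov b D G vs cs) {p : ℕ × Cl} (hp : p ∈ cs) (hu : u ∈ p.2.vs)
    (hx : x ∈ p.2.vs) : Wk G u x (PS b (p.1 + 1)) := by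
  obtain ⟨d, h1, -, h3⟩ := h.tree p hp
  have := h3 u hu
  have := h3 x hx
  exact ((h1.wk u hu).symm.trans (h1.wk x hx)).mono (by omega)

theorem MCov.top (h : MCov b D G vs cs) (hL : ∀ e ∈ G, e.2.2.1 ≤ L)
    (hD : vs.length * L ≤ PS b D) (hw : Wk G u x r) : Wk G u x (PS b D) := by
  refine (wk_of_wn (hw.wn.diam vs.toFinset L ?_)).mono
    ((Nat.mul_le_mul_right _ (List.toFinset_card_le _)).trans hD)
  rintro u v l ⟨e, h1, h2, rfl⟩
  exact ⟨List.mem_toFinset.2 ((h.mem v).2 ⟨e, h1, h2.elim (fun a => Or.inr a.2)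
    fun a => Or.inl a.1⟩), hL e h1⟩

/-- The clusters are numbered by their positions in the list. -/
theorem MCov.cov (h : MCov b D G vs cs) (hL : ∀ e ∈ G, e.2.2.1 ≤ L)
    (hD : vs.length * L ≤ PS b D) {sc : ℕ → ℕ} {mem : ℕ → ℕ → Prop}
    (hs : ∀ j (hj : j < cs.length), sc j = cs[j].1 ∧ ∀ u, mem j u ↔ u ∈ cs[j].2.vs) :
    Cov (ER G) (· ∈ vs) D (b + 1) (PS b) (fun s => (range cs.length).filter fun j => sc j = s)
      fun _ j u => mem j u where
  symm _ _ _ := ER.symm
  vx u v l := by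
    rintro ⟨e, h1, h2, -⟩
    exact (h.mem u).2 ⟨e, h1, h2.elim (fun a => Or.inl a.1) fun a => Or.inr a.2⟩
  pos := PS_pos b
  mono s := PS_mono b (Nat.le_succ s)
  zero u hu := by
    obtain ⟨j, hj, e⟩ := List.getElem_of_mem (h.zero u hu)
    exact ⟨j, by simp [hj, (hs j hj).1, e], by simp [(hs j hj).2, e, Cl.vs]⟩
  pad u hu s h1 h2 := by
    obtain ⟨C, h3, h4⟩ := h.pad u hu s h1 h2
    obtain ⟨j, hj, e⟩ := List.getElem_of_mem h3
    exact ⟨j, by simp [hj, (hs j hj).1, e], fun x hx => by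
      rw [(hs j hj).2, e]; exact h4 x (wk_of_wn hx)⟩
  few s u T _ _ hT hu := by
    refine le_trans ?_ (h.few s u)
    rw [countP_eq_sum, ← card_filter]
    refine card_le_card fun j hj => ?_
    obtain ⟨h1, h2⟩ := mem_filter.1 (hT hj)
    have h3 := mem_range.1 h1
    simp [h3, ← (hs j h3).1, ← (hs j h3).2, h2, hu j hj]
  nest s j u x _ hj hu hx := by
    obtain ⟨h1, h2⟩ := mem_filter.1 hj
    have h3 := mem_range.1 h1
    rw [← h2, (hs j h3).1]
    exact (h.near (List.getElem_mem h3) (((hs j h3).2 u).1 hu) (((hs j h3).2 x).1 hx)).wn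
  top u x r hw := (h.top hL hD (wk_of_wn hw)).wn

end Vale.Agent.P305CV
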