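import Vale.Agent.P305CV.Dij

/-!
# Sparse covers: growing one ball
-/

namespace Vale.Agent.P305CV

open Vale.Agent.P305E Finset

/-- One stage of the growth of a ball. -/
noncomputable def growStep (adj : AL) (rm fr : Arr Bool) (r N : ℕ) (p : DS × ℕ) :
    M ((DS × ℕ) ⊕ (DS × ℕ)) :=
  loopM (extStep adj rm fr p.2) N p.1 >>= fun s =>
    if s.cn ≤ 2 * p.1.cn ∧ s.vo ≤ 2 * p.1.vo then pure (.inr (s, p.2)) else
      num (p.2 + 2 * r) >>= fun ρ => pure (.inl (s, ρ))

/-- The ball about `x` grows until it does not double any more. -/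
noncomputable def ball (adj : AL) (rm fr : Arr Bool) (r N x : ℕ) : M (DS × ℕ) :=
  settle adj rm fr ⟨.empty, .const (0, 0, 0, 0, 0), .const false, .const 0, [], 0, 0⟩ x 0 [] >>=
    fun s => num (2 * r) >>= fun ρ => loopM (growStep adj rm fr r N) N (s, ρ)

/-- The entries of `A` at the vertices of `l` in `F` with distance at most `θ` are set to `val`. -/
def mark (F : Arr Bool) (D : Arr ℕ) (θ : ℕ) (val : Bool) (A : Arr Bool) (l : List Rec) :
    M (Arr Bool) :=
  foldP (fun A x => if F.get x.1 = true ∧ D.get x.1 ≤ θ then A.set x.1 val else A) A l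

section impl
variable {α : Type} [Rep α]

@[fun_prop] theorem impl_ball {adj : α → AL} {rm fr : α → Arr Bool} {r N u : α → ℕ}
    (h1 : Pure adj) (h2 : Pure rm) (h3 : Pure fr) (h4 : Pure r) (h5 : Pure u) :
    Impl fun x => ball (adj x) (rm x) (fr x) (r x) (N x) (u x) := by
  unfold ball growStep
  fun_prop

@[fun_prop] theorem impl_mark {F A : α → Arr Bool} {D : α → Arr ℕ} {θ : α → ℕ} {val : α → Bool}
    {l : α → List Rec} (h1 : Pure F) (h2 : Pure D) (h3 : Pure θ) (h4 : Pure val) (h5 : Pure A)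
    (h6 : Pure l) : Impl fun x => mark (F x) (D x) (θ x) (val x) (A x) (l x) := by
  unfold mark
  fun_prop

end impl

variable {c : Cx} {L : ℕ} {vs : List ℕ} {G : List WE} {adj : AL} {rm fr : Arr Bool}

theorem foldl_mark (F : Arr Bool) (D : Arr ℕ) (θ : ℕ) (val : Bool) (v : ℕ) : ∀ (l : List Rec)
    (A : Arr Bool), (l.foldl (fun (A : Arr Bool) (x : Rec) =>
      if F.get x.1 = true ∧ D.get x.1 ≤ θ then A.set x.1 val else A) A).get v =
      if v ∈ l.map Prod.fst ∧ F.get v = true ∧ D.get v ≤ θ then val else A.get v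
  | [], A => by simp
  | x :: l, A => by
    rw [List.foldl_cons, foldl_mark F D θ val v l]
    by_cases h : v = x.1
    · subst h
      by_cases h' : F.get x.1 = true ∧ D.get x.1 ≤ θ <;> simp [h']
    · have e : (if F.get x.1 = true ∧ D.get x.1 ≤ θ then A.set x.1 val else A).get v =
          A.get v := by split_ifs <;> simp [h]
      simp only [e, List.map_cons, List.mem_cons, h, false_or]

/-- The result of the growth of a ball. -/
structure BOK (vs : List ℕ) (G : List WE) (adj : AL) (rm fr : Arr Bool) (b r x ρ : ℕ) (s : DS) :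
    Prop where
  di : DI vs G adj rm fr x ρ s
  key : ∀ y p, s.Q.get y = some p → ρ < p.1
  lo : 2 * r ≤ ρ
  hi : ρ ≤ (4 * b + 4) * r
  cn : s.cn ≤ 2 * sv vs (fun _ => 1)
    fun v => s.S.get v = true ∧ fr.get v = true ∧ s.D.get v ≤ ρ - r - r
  vo : s.vo ≤ 2 * sv vs (dg adj) fun v => s.S.get v = true ∧ s.D.get v ≤ ρ - r

theorem ball_tri (h : Env c.B L vs G adj) {b r N x : ℕ} (hx : x ∈ vs) (hf : fr.get x = true)
    (hr : ¬ rm.get x = true) (hB : (4 * b + 8) * r + L ≤ c.B)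
    (hn : sv vs (fun _ => 1) (fun _ => True) ≤ 2 ^ b)
    (hm : sv vs (dg adj) (fun _ => True) ≤ 2 ^ (b + 1)) (hN : 2 ^ (b + 2) < N) :
    Tri c (ball adj rm fr r N x) fun p t => BOK vs G adj rm fr b r x p.2 p.1 ∧
      t ≤ 2 * p.1.vo + 2 * b + 1 := by
  have hp : 2 ^ (b + 2) = 2 * 2 ^ (b + 1) := by ring
  have hp' : 2 ^ (b + 1) = 2 * 2 ^ b := by ring
  refine (settle_tri (x := x) (l := []) h hx (by simp) hr (by omega) (fun y p hp => by simp at hp)
    (fun p hp => by simp at hp) (fun v _ _ hv => by simp at hv) (fun v hv => by simp at hv) trivial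
    (fun u => by simp [Cl.vs]) (by simp) (sv_false (by simp)).symm (sv_false (by simp)).symm).bind ?_
  rintro s t ⟨a1, a2, -, a4, a5⟩
  have a6 : 1 ≤ s.cn := by
    have := sv_single (f := fun _ => 1) hx True
    rw [if_pos trivial] at this
    rw [a1.cn]
    exact this.ge.trans (sv_mono fun v _ e => by rw [e.1, a2]; simp [hf])
  simp only [Tri_bind, Tri_num, zero_add] at a4 a5 ⊢
  refine ⟨by nlinarith, Tri.loopM (fun p t' => ∃ j, DI vs G adj rm fr x (2 * r * j) p.1 ∧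
    p.2 = 2 * r * j + 2 * r ∧ 2 ^ j ≤ p.1.cn * p.1.vo ∧ t + t' ≤ 2 * p.1.vo + j)
    (fun p => 2 ^ (b + 2) - (p.1.cn + p.1.vo)) ?_
    ⟨0, by simpa using a1, by simp, by simp only [pow_zero]; nlinarith, by simp only; omega⟩
    (by omega)⟩
  rintro ⟨s', ρ⟩ t' ⟨j, d1, d2, d3, d4⟩
  simp only at d1 d2 d3 d4
  have bd : ∀ {k} {s : DS}, DI vs G adj rm fr x k s → s.cn ≤ 2 ^ b ∧ s.vo ≤ 2 ^ (b + 1) :=
    fun d => ⟨d.cn ▸ (sv_mono fun _ _ _ => trivial).trans hn,
      d.vo ▸ (sv_mono fun _ _ _ => trivial).trans hm⟩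
  have hj : j ≤ 2 * b + 1 := by
    refine (Nat.pow_le_pow_iff_right (by norm_num : 1 < 2)).1 (d3.trans ?_)
    calc _ ≤ 2 ^ b * 2 ^ (b + 1) := Nat.mul_le_mul (bd d1).1 (bd d1).2
      _ = _ := by ring
  have hρ : ρ ≤ (4 * b + 4) * r := by nlinarith
  refine (ext_tri h (ρ := ρ) (by nlinarith) d1 (by omega) (by omega)).bind ?_
  rintro s'' t'' ⟨e1, e2, e3, e4⟩
  have m1 : s'.cn ≤ sv vs (fun _ => 1)
      fun v => s''.S.get v = true ∧ fr.get v = true ∧ s''.D.get v ≤ ρ - r - r :=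
    d1.cn ▸ sv_mono fun v _ e => ⟨(e3 v e.1).1, e.2, by
      have := (d1.le v e.1).1
      rw [(e3 v e.1).2]; omega⟩
  have m2 : s'.vo ≤ sv vs (dg adj) fun v => s''.S.get v = true ∧ s''.D.get v ≤ ρ - r :=
    d1.vo ▸ sv_mono fun v _ e => ⟨(e3 v e).1, by
      have := (d1.le v e).1
      rw [(e3 v e).2]; omega⟩
  have m3 : s'.cn ≤ s''.cn := m1.trans (e1.cn ▸ sv_mono fun v _ e => ⟨e.1, e.2.1⟩)
  have m4 : s'.vo ≤ s''.vo := m2.trans (e1.vo ▸ sv_mono fun v _ e => e.1)
  have m5 := bd e1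
  simp only [Tri_ite, Tri_pure, Tri_bind, Tri_num, Sum.elim_inl, Sum.elim_inr, add_zero]
  refine ⟨fun g => ⟨⟨e1, e2, by omega, hρ, by omega, by omega⟩, by omega⟩, fun g => ⟨by nlinarith,
    ⟨j + 1, by rwa [mul_add, mul_one, ← d2], by rw [d2]; ring, ?_, by omega⟩, by omega⟩⟩
  rw [pow_succ]
  rcases not_and_or.1 g with g | g <;> nlinarith

variable {x ρ : ℕ} {s : DS}

theorem DI.edge (h : DI vs G adj rm fr x ρ s) (key : ∀ y p, s.Q.get y = some p → ρ < p.1)
    {v y : ℕ} {e : WE} (hv : s.S.get v = true) (he : e ∈ G) (hj : Jn e v y)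
    (hy : ¬ rm.get y = true) (hl : s.D.get v + e.2.2.1 ≤ ρ) :
    s.S.get y = true ∧ s.D.get y ≤ s.D.get v + e.2.2.1 := by
  rcases h.seen v y e hv he hj hy with a | ⟨p, a1, a2⟩
  · exact a
  · have := key y p a1
    omega

theorem DI.fwd (h : DI vs G adj rm fr x ρ s) (key : ∀ y p, s.Q.get y = some p → ρ < p.1)
    {r u z l : ℕ} (hu : s.S.get u = true) (hr : ∀ y, Wk G u y r → ¬ rm.get y = true)
    (hw : Wk G u z l) (hl : l ≤ r) (hρ : s.D.get u + r ≤ ρ) :
    s.S.get z = true ∧ s.D.get z ≤ s.D.get u + l := by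
  induction hw with
  | refl => exact ⟨hu, by omega⟩
  | @step b z l e hw he hj ih =>
    obtain ⟨a1, a2⟩ := ih (by omega)
    obtain ⟨a3, a4⟩ := h.edge key a1 he hj (hr _ ((hw.step he hj).mono hl)) (by omega)
    exact ⟨a3, by omega⟩

theorem DI.bwd (h : DI vs G adj rm fr x ρ s) (key : ∀ y p, s.Q.get y = some p → ρ < p.1)
    {r u z l : ℕ} (hr : ∀ y, Wk G u y r → ¬ rm.get y = true) (hw : Wk G u z l) (hl : l ≤ r)
    (hz : s.S.get z = true) (hρ : s.D.get z + l ≤ ρ) : s.S.get u = true := by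
  induction hw with
  | refl => exact hz
  | @step b z l e hw he hj ih =>
    obtain ⟨a3, a4⟩ := h.edge key hz he hj.symm (hr _ (hw.mono (by omega))) (by omega)
    exact ih (by omega) a3 (by omega)

theorem DI.len (h : DI vs G adj rm fr x ρ s) : s.l.length + 1 ≤ s.vo := by
  have e : s.l.length + 1 = ∑ _v ∈ (Cl.vs (x, s.l)).toFinset, 1 := by
    rw [sum_const, smul_eq_mul, mul_one, List.toFinset_card_of_nodup h.tl.nodup]
    simp [Cl.vs]
  rw [e, h.vo, sv]
  refine (sum_le_sum fun v hv => ?_).trans (sum_le_sum_of_subset fun v hv => List.mem_toFinset.2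
    (h.le v ((h.mem v).2 (List.mem_toFinset.1 hv))).2.2)
  simp [dg, (h.mem v).2 (List.mem_toFinset.1 hv)]

end Vale.Agent.P305CV
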