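import Vale.Agent.P305CV.Ball

/-!
# Sparse covers: the rounds and the main theorem
-/

namespace Vale.Agent.P305CV

open Vale.Agent.P305E Finset

/-- The state of a round: uncovered, free and removed vertices, and the clusters. -/
abbrev RS : Type := Arr Bool × Arr Bool × Arr Bool × List Cl

/-- A cluster is cut out at the vertex `u`, if `u` is free. -/
noncomputable def carve (adj : AL) (r N : ℕ) (σ : RS) (u : ℕ) : M RS :=
  if σ.2.1.get u = true then
    ball adj σ.2.2.1 σ.2.1 r N u >>= fun p =>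
      mark σ.2.1 p.1.D (p.2 - r - r) false σ.1 ((u, u, 0, 0, 0, 0) :: p.1.l) >>= fun un =>
      mark p.1.S p.1.D p.2 false σ.2.1 ((u, u, 0, 0, 0, 0) :: p.1.l) >>= fun fr =>
      mark p.1.S p.1.D (p.2 - r) true σ.2.2.1 ((u, u, 0, 0, 0, 0) :: p.1.l) >>= fun rm =>
      filterP (fun x => decide (p.1.D.get x.1 ≤ p.2 - r)) p.1.l >>= fun C =>
        pure (un, fr, rm, (u, C) :: σ.2.2.2)
  else pure σ

/-- One round. -/
noncomputable def round (adj : AL) (r N : ℕ) (vs : List ℕ) (σ : Arr Bool × List Cl) :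
    M (Arr Bool × List Cl) :=
  foldM (carve adj r N) (σ.1, σ.1, .const false, σ.2) vs >>= fun τ => pure (τ.1, τ.2.2.2)

/-- A new entry of an adjacency list. -/
def push (A : AL) (x y : ℕ) (e : WE) : AL := A.set x ((y, e) :: A.get x)

/-- A new edge. -/
def addE (A : AL) (e : WE) : AL := push (push A e.1 e.2.1 e) e.2.1 e.1 e

/-- The program. -/
noncomputable def coverP (x : ℕ × ℕ × List ℕ × List WE) : M (List Cl) :=
  foldP addE (.const []) x.2.2.2 >>= fun adj => num (x.1 + 1) >>= fun k =>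
    iterM (fun σ _ => round adj x.2.1 (2 ^ (x.1 + 2) + 1) x.2.2.1 σ) (.const true, []) k >>=
      fun σ => pure σ.2

section impl
variable {α : Type} [Rep α]

@[fun_prop] theorem impl_round {adj : α → AL} {r N : α → ℕ} {vs : α → List ℕ}
    {σ : α → Arr Bool × List Cl} (h1 : Pure adj) (h2 : Pure r) (h3 : Pure vs) (h4 : Pure σ) :
    Impl fun x => round (adj x) (r x) (N x) (vs x) (σ x) := by
  unfold round carve
  fun_prop

@[fun_prop] theorem pure_push {A : α → AL} {u v : α → ℕ} {e : α → WE} (h1 : Pure A) (h2 : Pure u)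
    (h3 : Pure v) (h4 : Pure e) : Pure fun x => push (A x) (u x) (v x) (e x) := by
  unfold push
  fun_prop

theorem impl_coverP : Impl coverP := by
  unfold coverP addE
  fun_prop

end impl

variable {c : Cx} {L : ℕ} {vs : List ℕ} {G : List WE} {adj : AL}

theorem mem_push {A : AL} {x y v : ℕ} {e : WE} {q : ℕ × WE} :
    q ∈ (push A x y e).get v ↔ q ∈ A.get v ∨ (v = x ∧ q = (y, e)) := by
  unfold push
  rw [Arr.get_set]
  split_ifs with h
  · subst h
    simp [or_comm]
  · simp [h]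

theorem mem_addE (v y : ℕ) (e : WE) : ∀ (G : List WE) (A : AL),
    (y, e) ∈ (G.foldl addE A).get v ↔ (y, e) ∈ A.get v ∨ (e ∈ G ∧ Jn e v y)
  | [], A => by simp
  | e' :: G, A => by
    rw [List.foldl_cons, mem_addE v y e G, addE, mem_push, mem_push, List.mem_cons]
    simp only [Prod.mk.injEq, Jn]
    constructor
    · rintro (((a | ⟨rfl, rfl, rfl⟩) | ⟨rfl, rfl, rfl⟩) | ⟨a, b⟩) <;> simp_all
    · rintro (a | ⟨rfl | a, b⟩)
      · simp [a]
      · rcases b with ⟨rfl, rfl⟩ | ⟨rfl, rfl⟩ <;> simp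
      · exact Or.inr ⟨a, b⟩

theorem tot_push (A : AL) (x y : ℕ) (e : WE) :
    sv vs (dg (push A x y e)) (fun _ => True) ≤ sv vs (dg A) (fun _ => True) + 1 := by
  have h : ∑ v ∈ vs.toFinset, (if v = x then 1 else 0) ≤ 1 := by
    rw [sum_ite_eq']; split_ifs <;> simp
  refine le_trans ?_ (Nat.add_le_add_left h _)
  unfold sv
  rw [← sum_add_distrib]
  refine sum_le_sum fun v _ => ?_
  by_cases hv : v = x <;> simp [dg, push, hv]

theorem tot_addE : ∀ (G : List WE) (A : AL), sv vs (dg (G.foldl addE A)) (fun _ => True) ≤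
    sv vs (dg A) (fun _ => True) + 2 * G.length
  | [], A => by simp
  | e :: G, A => by
    have h1 := tot_addE G (addE A e)
    have h2 := tot_push (vs := vs) (push A e.1 e.2.1 e) e.2.1 e.1 e
    have h3 := tot_push (vs := vs) A e.1 e.2.1 e
    rw [List.foldl_cons, List.length_cons]
    unfold addE at h1 ⊢
    omega

/-- The invariant of a round. -/
structure RI (vs : List ℕ) (G : List WE) (adj : AL) (b r k U : ℕ) (pre : List ℕ) (σ : RS) (t : ℕ) :
    Prop where
  fu : ∀ x, σ.2.1.get x = true → σ.1.get x = true ∧ x ∉ pre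
  fb : ∀ x, σ.2.1.get x = true → ∀ z, Wk G x z r → ¬ σ.2.2.1.get z = true
  cov : ∀ x, ¬ σ.1.get x = true → ∃ C ∈ σ.2.2.2, ∀ z, Wk G x z r → z ∈ C.vs
  cl : ∀ C ∈ σ.2.2.2, ClOK vs G r ((4 * b + 4) * r) C
  few : ∀ u, σ.2.2.2.countP (fun C => u ∈ C.vs) ≤ k + if σ.2.2.1.get u = true then 1 else 0
  cnt : 2 * sv vs (fun _ => 1) (fun v => σ.1.get v = true) ≤
    U + sv vs (fun _ => 1) fun v => σ.2.1.get v = true
  time : t ≤ 12 * sv vs (dg adj) (fun v => σ.2.2.1.get v = true) + (2 * b + 2) * pre.length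

theorem carve_tri (h : Env c.B L vs G adj) {b r k U u t : ℕ} {pre : List ℕ} {σ : RS} (hu : u ∈ vs)
    (hB : (4 * b + 8) * r + L ≤ c.B) (hn : sv vs (fun _ => 1) (fun _ => True) ≤ 2 ^ b)
    (hm : sv vs (dg adj) (fun _ => True) ≤ 2 ^ (b + 1)) (a : RI vs G adj b r k U pre σ t) :
    Tri c (carve adj r (2 ^ (b + 2) + 1) σ u) fun σ' t' =>
      RI vs G adj b r k U (pre ++ [u]) σ' (t + t' + 1) := by
  obtain ⟨un, fr, rm, out⟩ := σ
  obtain ⟨a1, a2, a3, a4, a5, a6, a7⟩ := a
  simp only at a1 a2 a3 a4 a5 a6 a7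
  simp only [carve, Tri_ite, Tri_pure]
  refine ⟨fun hf => ?_, fun hf => ⟨fun x hx => ⟨(a1 x hx).1, by
    simp only [List.mem_append, List.mem_singleton, not_or]
    exact ⟨(a1 x hx).2, fun e => hf (e ▸ hx)⟩⟩, a2, a3, a4, a5, a6, by
      simp only [List.length_append, List.length_singleton]; nlinarith⟩⟩
  refine (ball_tri h hu hf (a2 u hf u (.refl _)) hB hn hm (Nat.lt_succ_self _)).bind ?_
  rintro ⟨s, ρ⟩ t' ⟨⟨d, key, lo, hi, cn, vo⟩, ht⟩
  simp only at d key lo hi cn vo ht
  simp only [mark, Tri_bind, Tri_foldP, Tri_filterP, Tri_pure]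
  have hl : ∀ v, v ∈ ((u, u, 0, 0, 0, 0) :: s.l : List Rec).map Prod.fst ↔ s.S.get v = true :=
    fun v => (d.mem v).symm
  generalize e1 : List.foldl _ un _ = un'
  generalize e2 : List.foldl _ fr _ = fr'
  generalize e3 : List.foldl _ rm _ = rm'
  have f1 : ∀ v, un'.get v = true ↔ un.get v = true ∧
      ¬ (s.S.get v = true ∧ fr.get v = true ∧ s.D.get v ≤ ρ - r - r) := fun v => by
    rw [← e1, foldl_mark, ← hl]; split_ifs <;> simp_all
  have f2 : ∀ v, fr'.get v = true ↔ fr.get v = true ∧ ¬ s.S.get v = true := fun v => by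
    have := d.le v
    have := hl v
    rw [← e2, foldl_mark]; split_ifs <;> simp_all
  have f3 : ∀ v, rm'.get v = true ↔ rm.get v = true ∨
      (s.S.get v = true ∧ s.D.get v ≤ ρ - r) := fun v => by
    have := hl v
    rw [← e3, foldl_mark]; split_ifs <;> simp_all
  have hC : ∀ v, v ∈ Cl.vs (u, s.l.filter fun x => s.D.get x.1 ≤ ρ - r) ↔
      s.S.get v = true ∧ s.D.get v ≤ ρ - r := fun v => by
    rw [mem_vs_filter (by rw [d.d0]; omega), d.mem]
  have hu' : s.S.get u = true := (d.mem u).2 (by simp [Cl.vs])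
  have fw : ∀ x, s.S.get x = true → fr.get x = true → s.D.get x ≤ ρ - r - r → ∀ z, Wk G x z r →
      z ∈ Cl.vs (u, s.l.filter fun x => s.D.get x.1 ≤ ρ - r) := fun x h1 h2 h3 z hz => by
    obtain ⟨b1, b2⟩ := d.fwd key h1 (a2 x h2) hz le_rfl (by omega)
    exact (hC z).2 ⟨b1, by omega⟩
  refine ⟨fun x hx => ?_, fun x hx z hz hr => ?_, fun x hx => ?_, fun C hC' => ?_, fun v => ?_,
    ?_, ?_⟩
  · obtain ⟨b1, b2⟩ := (f2 x).1 hx
    refine ⟨(f1 x).2 ⟨(a1 x b1).1, fun e => b2 e.1⟩, ?_⟩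
    simp only [List.mem_append, List.mem_singleton, not_or]
    exact ⟨(a1 x b1).2, fun e => b2 (e ▸ hu')⟩
  · obtain ⟨b1, b2⟩ := (f2 x).1 hx
    rcases (f3 z).1 hr with e | e
    · exact a2 x b1 z hz e
    · exact b2 (d.bwd key (a2 x b1) hz le_rfl e.1 (by omega))
  · by_cases e : un.get x = true
    · have e' := not_not.1 fun g => hx ((f1 x).2 ⟨e, g⟩)
      exact ⟨_, List.mem_cons_self, fw x e'.1 e'.2.1 e'.2.2⟩
    · obtain ⟨C, b1, b2⟩ := a3 x e
      exact ⟨C, List.mem_cons_of_mem _ b1, b2⟩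
  · rcases List.mem_cons.1 hC' with rfl | e
    · exact ⟨fun v hv => (d.le v ((hC v).1 hv).1).2.2,
        ⟨_, d.tl.filter (by rw [d.d0]; omega), d.d0, fun v hv => by
          have := ((hC v).1 hv).2
          omega⟩, fw u hu' hf (by rw [d.d0]; omega)⟩
    · exact a4 C e
  · have b1 := a5 v
    have b2 := d.le v
    simp only [List.countP_cons, decide_eq_true_eq, hC, f3]
    split_ifs at b1 ⊢ <;> first | omega | tauto
  · have b1 := sv_add (vs := vs) (f := fun _ => 1) (T := fun v => un.get v = true)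
      (T' := fun v => un'.get v = true)
      (T'' := fun v => s.S.get v = true ∧ fr.get v = true ∧ s.D.get v ≤ ρ - r - r)
      (fun v _ => by have := a1 v; rw [f1]; tauto) (fun v _ e => ((f1 v).1 e).2)
    have b2 := sv_add (vs := vs) (f := fun _ => 1) (T := fun v => fr.get v = true)
      (T' := fun v => fr'.get v = true) (T'' := fun v => s.S.get v = true ∧ fr.get v = true)
      (fun v _ => by rw [f2]; tauto) (fun v _ e g => ((f2 v).1 e).2 g.1)
    have b3 := d.cn
    simp only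
    omega
  · have b1 := sv_add (vs := vs) (f := dg adj) (T := fun v => rm'.get v = true)
      (T' := fun v => rm.get v = true) (T'' := fun v => s.S.get v = true ∧ s.D.get v ≤ ρ - r)
      (fun v _ => f3 v) (fun v _ e g => (d.le v g.1).2.1 e)
    have b2 := d.len
    simp only [List.length_append, List.length_cons, List.length_nil, zero_add, mul_add, mul_one]
    omega

theorem cover : COVER := by
  refine ⟨coverP, impl_coverP, fun c b r L vs G hvs hG hb hB => ?_⟩
  have hn : sv vs (fun _ => 1) (fun _ => True) = vs.length := by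
    simp [sv, List.toFinset_card_of_nodup hvs]
  have hm : sv vs (dg (G.foldl addE (.const []))) (fun _ => True) ≤ vs.length + 2 * G.length :=
    (tot_addE G _).trans (by rw [← hn]; rfl)
  have hp : 2 ^ (b + 2) = 2 * 2 ^ (b + 1) := by ring
  have hp' : 2 ^ (b + 1) = 2 * 2 ^ b := by ring
  have hlt : b + 1 < 2 ^ (b + 1) := Nat.lt_two_pow_self
  simp only [coverP, Tri_bind, Tri_foldP, Tri_num]
  generalize e : G.foldl addE (.const []) = adj at hm
  have h : Env c.B L vs G adj := ⟨fun v y e' => by rw [← e, mem_addE]; simp, hG, by omega⟩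
  refine ⟨by omega, (Tri.iterM (fun k (σ : Arr Bool × List Cl) t =>
    (∀ x, ¬ σ.1.get x = true → ∃ C ∈ σ.2, ∀ z, Wk G x z r → z ∈ C.vs) ∧
    (∀ C ∈ σ.2, ClOK vs G r ((4 * b + 4) * r) C) ∧
    (∀ u, σ.2.countP (fun C => u ∈ C.vs) ≤ k) ∧
    2 ^ k * sv vs (fun _ => 1) (fun v => σ.1.get v = true) ≤ vs.length ∧
    t ≤ k * (12 * (vs.length + 2 * G.length) + (2 * b + 2) * vs.length + 1))
    ⟨by simp, by simp, by simp, by simp [← hn], by simp⟩ ?_).mono ?_⟩
  · rintro k ⟨un, out⟩ t - ⟨a1, a2, a3, a4, a5⟩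
    refine (Tri.foldM (RI vs G adj b r k (sv vs (fun _ => 1) fun v => un.get v = true))
      ⟨by simp, by simp, a1, a2, fun u => (a3 u).trans (Nat.le_add_right _ _), by simp only; omega,
        by omega⟩ fun pre u rest σ t e a => carve_tri h (by simp [e]) (by omega) (by omega)
          (by omega) a).bind ?_
    rintro σ t' ⟨d1, -, d3, d4, d5, d6, d7⟩
    rw [sv_false (T := fun v => σ.2.1.get v = true) fun v hv e => (d1 v e).2 hv] at d6
    have d8 : sv vs (dg adj) (fun v => σ.2.2.1.get v = true) ≤ _ :=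
      (sv_mono fun _ _ _ => trivial).trans hm
    refine ⟨d3, d4, fun u => (d5 u).trans (by split_ifs <;> omega), ?_, ?_⟩
    · rw [pow_succ, mul_assoc]
      exact (Nat.mul_le_mul_left _ d6).trans a4
    · rw [add_mul k]
      omega
  · rintro ⟨un, out⟩ t ⟨a1, a2, a3, a4, a5⟩
    refine ⟨⟨a2, fun u hu => a1 u fun e => ?_, a3⟩, ?_⟩
    · have := sv_single (f := fun _ => 1) hu True
      rw [if_pos trivial] at this
      have b1 : 1 ≤ sv vs (fun _ => 1) fun v => un.get v = true :=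
        this.ge.trans (sv_mono fun v _ g => g.1 ▸ e)
      have b2 : 0 < 2 ^ b := by positivity
      simp only at a4
      nlinarith
    · nlinarith [Nat.zero_le (b * vs.length), Nat.zero_le (b * G.length), Nat.zero_le (b * b),
        Nat.zero_le (b * b * vs.length), Nat.zero_le (b * b * G.length)]

end Vale.Agent.P305CV
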