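import Vale.Agent.P305E.MinArr

/-!
# Sparse covers: the specification
-/

namespace Vale.Agent.P305CV

open Vale.Agent.P305E

/-- An edge: two ends, length and name. -/
abbrev WE : Type := ℕ × ℕ × ℕ × ℕ
/-- A vertex of a tree with its parent and the edge to the parent. -/
abbrev Rec : Type := ℕ × ℕ × WE
/-- A cluster: the centre and the other vertices, children before their parents. -/
abbrev Cl : Type := ℕ × List Rec

/-- The edge `e` joins `a` and `b`. -/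
def Jn (e : WE) (a b : ℕ) : Prop := (e.1 = a ∧ e.2.1 = b) ∨ (e.1 = b ∧ e.2.1 = a)

theorem Jn.symm {e : WE} {a b : ℕ} (h : Jn e a b) : Jn e b a := Or.symm h

/-- `Wk G a b l`: there is a walk from `a` to `b` of length at most `l`. -/
inductive Wk (G : List WE) (a : ℕ) : ℕ → ℕ → Prop
  | refl (l : ℕ) : Wk G a a l
  | step {b c l : ℕ} {e : WE} : Wk G a b l → e ∈ G → Jn e b c → Wk G a c (l + e.2.2.1)

theorem Wk.mono {G : List WE} {a b l l' : ℕ} (h : Wk G a b l) (hl : l ≤ l') : Wk G a b l' := by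
  induction h generalizing l' with
  | refl => exact .refl _
  | @step b c l e _ he hj ih =>
    obtain ⟨k, rfl⟩ : ∃ k, l' = k + e.2.2.1 := ⟨l' - e.2.2.1, by omega⟩
    exact .step (ih (by omega)) he hj

/-- The vertices of a cluster. -/
def Cl.vs (C : Cl) : List ℕ := C.1 :: C.2.map Prod.fst

/-- The list is a tree with root `c` and depths `D`. -/
def TL (G : List WE) (c : ℕ) (D : ℕ → ℕ) : List Rec → Prop
  | [] => True
  | r :: l => TL G c D l ∧ r.1 ∉ Cl.vs (c, l) ∧ r.2.1 ∈ Cl.vs (c, l) ∧ r.2.2 ∈ G ∧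
      Jn r.2.2 r.2.1 r.1 ∧ D r.1 = D r.2.1 + r.2.2.2.2.1

/-- A cluster: a tree of depth at most `R` in `vs` that contains the ball of radius `r` about its
centre. -/
structure ClOK (vs : List ℕ) (G : List WE) (r R : ℕ) (C : Cl) : Prop where
  sub : ∀ v ∈ C.vs, v ∈ vs
  tree : ∃ D, TL G C.1 D C.2 ∧ D C.1 = 0 ∧ ∀ v ∈ C.vs, D v ≤ R
  ctr : ∀ z, Wk G C.1 z r → z ∈ C.vs

/-- A sparse cover. -/
structure CovOK (vs : List ℕ) (G : List WE) (r R k : ℕ) (out : List Cl) : Prop where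
  cl : ∀ C ∈ out, ClOK vs G r R C
  cov : ∀ u ∈ vs, ∃ C ∈ out, ∀ z, Wk G u z r → z ∈ C.vs
  few : ∀ u, out.countP (fun C => u ∈ C.vs) ≤ k

/-- The statement: input `(b, r, vs, G)`. -/
def COVER : Prop := ∃ f : ℕ × ℕ × List ℕ × List WE → M (List Cl), Impl f ∧
  ∀ (c : Cx) (b r L : ℕ) (vs : List ℕ) (G : List WE), vs.Nodup →
    (∀ e ∈ G, e.1 ∈ vs ∧ e.2.1 ∈ vs ∧ e.2.2.1 ≤ L) → vs.length + G.length ≤ 2 ^ b →
    2 ^ (b + 2) + (4 * b + 8) * r + L ≤ c.B → Tri c (f (b, r, vs, G)) fun out t =>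
      CovOK vs G r ((4 * b + 4) * r) (b + 1) out ∧
        t ≤ 40 * (b + 1) ^ 2 * (vs.length + G.length + 1)

theorem TL.nodup {G : List WE} {c : ℕ} {D : ℕ → ℕ} : ∀ {l : List Rec}, TL G c D l →
    (Cl.vs (c, l)).Nodup
  | [], _ => by simp [Cl.vs]
  | r :: l, h => by
    have h1 := TL.nodup h.1
    have h2 := h.2.1
    simp only [Cl.vs, List.map_cons, List.nodup_cons, List.mem_cons, not_or] at h1 h2 ⊢
    exact ⟨⟨fun e => h2.1 e.symm, h1.1⟩, h2.2, h1.2⟩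

theorem mem_vs_cons {c v : ℕ} {r : Rec} {l : List Rec} :
    v ∈ Cl.vs (c, r :: l) ↔ v = r.1 ∨ v ∈ Cl.vs (c, l) := by
  simp only [Cl.vs, List.map_cons, List.mem_cons]; tauto

theorem TL.congr {G : List WE} {c : ℕ} {D D' : ℕ → ℕ} : ∀ {l : List Rec}, TL G c D l →
    (∀ v ∈ Cl.vs (c, l), D' v = D v) → TL G c D' l
  | [], _, _ => trivial
  | r :: l, ⟨h1, h2, h3, h4, h5, h6⟩, h => ⟨h1.congr fun v hv => h v (mem_vs_cons.2 (Or.inr hv)),
      h2, h3, h4, h5, by rw [h _ (mem_vs_cons.2 (Or.inl rfl)), h _ (mem_vs_cons.2 (Or.inr h3)), h6]⟩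

theorem mem_vs_filter {c v x : ℕ} {D : ℕ → ℕ} {l : List Rec} (hc : D c ≤ x) :
    v ∈ Cl.vs (c, l.filter fun r => D r.1 ≤ x) ↔ v ∈ Cl.vs (c, l) ∧ D v ≤ x := by
  simp only [Cl.vs, List.mem_cons, List.mem_map, List.mem_filter, decide_eq_true_eq]
  constructor
  · rintro (rfl | ⟨r, ⟨h1, h2⟩, rfl⟩)
    · exact ⟨Or.inl rfl, hc⟩
    · exact ⟨Or.inr ⟨r, h1, rfl⟩, h2⟩
  · rintro ⟨rfl | ⟨r, h1, rfl⟩, h2⟩
    · exact Or.inl rfl
    · exact Or.inr ⟨r, ⟨h1, h2⟩, rfl⟩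

theorem TL.filter {G : List WE} {c x : ℕ} {D : ℕ → ℕ} (hc : D c ≤ x) : ∀ {l : List Rec},
    TL G c D l → TL G c D (l.filter fun r => D r.1 ≤ x)
  | [], _ => trivial
  | r :: l, ⟨h1, h2, h3, h4, h5, h6⟩ => by
    rw [List.filter_cons]
    split_ifs with h
    · exact ⟨h1.filter hc, fun e => h2 ((mem_vs_filter hc).1 e).1,
        (mem_vs_filter hc).2 ⟨h3, by simp only [decide_eq_true_eq] at h; omega⟩, h4, h5, h6⟩
    · exact h1.filter hc

end Vale.Agent.P305CV
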