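import Vale.Agent.P305CV.Defs

/-!
# Sparse covers: Dijkstra's algorithm up to a given radius
-/

namespace Vale.Agent.P305CV

open Vale.Agent.P305E Finset

/-- The state of a search: queue, parents, settled vertices, distances, tree, two counters. -/
structure DS where
  Q : MinArr
  P : Arr (ℕ × WE)
  S : Arr Bool
  D : Arr ℕ
  l : List Rec
  cn : ℕ
  vo : ℕ

/-- Encoding. -/
def DS.enc (s : DS) := (s.Q, s.P, s.S, s.D, s.l, s.cn, s.vo)

instance : Rep DS := Rep.comap DS.enc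

@[fun_prop] theorem DS.pQ : Pure DS.Q := Pure.of_comap DS.enc (h := fun p => p.1) (by fun_prop)
@[fun_prop] theorem DS.pP : Pure DS.P := Pure.of_comap DS.enc (h := fun p => p.2.1) (by fun_prop)
@[fun_prop] theorem DS.pS : Pure DS.S := Pure.of_comap DS.enc (h := fun p => p.2.2.1) (by fun_prop)
@[fun_prop] theorem DS.pD : Pure DS.D :=
  Pure.of_comap DS.enc (h := fun p => p.2.2.2.1) (by fun_prop)
@[fun_prop] theorem DS.pl : Pure DS.l :=
  Pure.of_comap DS.enc (h := fun p => p.2.2.2.2.1) (by fun_prop)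
@[fun_prop] theorem DS.pcn : Pure DS.cn :=
  Pure.of_comap DS.enc (h := fun p => p.2.2.2.2.2.1) (by fun_prop)
@[fun_prop] theorem DS.pvo : Pure DS.vo :=
  Pure.of_comap DS.enc (h := fun p => p.2.2.2.2.2.2) (by fun_prop)
@[fun_prop] theorem DS.gcn : Grow DS.cn := DS.pcn.grow
@[fun_prop] theorem DS.gvo : Grow DS.vo := DS.pvo.grow
@[fun_prop] theorem DS.gD : Grow DS.D := DS.pD.grow
@[fun_prop] theorem DS.pmk {α : Type} [Rep α] {a : α → MinArr} {b : α → Arr (ℕ × WE)}
    {c : α → Arr Bool} {d : α → Arr ℕ} {e : α → List Rec} {f g : α → ℕ} (h1 : Pure a) (h2 : Pure b)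
    (h3 : Pure c) (h4 : Pure d) (h5 : Pure e) (h6 : Pure f) (h7 : Pure g) :
    Pure fun x : α => DS.mk (a x) (b x) (c x) (d x) (e x) (f x) (g x) :=
  Pure.to_comap DS.enc (by unfold DS.enc; fun_prop)

/-- Adjacency lists: the other end and the edge. -/
abbrev AL : Type := Arr (List (ℕ × WE))

/-- `k` is smaller than the key. -/
def better (o : Option (ℕ × ℕ)) (k : ℕ) : Bool := o.elim true fun p => decide (k < p.1)

/-- Relax one edge. -/
def relax (rm S : Arr Bool) (v d : ℕ) (q : MinArr × Arr (ℕ × WE)) (x : ℕ × WE) :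
    M (MinArr × Arr (ℕ × WE)) :=
  if rm.get x.1 = true ∨ S.get x.1 = true then pure q else
    num (d + x.2.2.2.1) >>= fun k =>
      if better (q.1.get x.1) k = true then
        pure (q.1.set x.1 (some (k, x.1)), q.2.set x.1 (v, x.2)) else pure q

/-- Settle the vertex `v` at distance `d`. -/
def settle (adj : AL) (rm fr : Arr Bool) (s : DS) (v d : ℕ) (l : List Rec) : M DS :=
  foldM (relax rm (s.S.set v true) v d) (s.Q.set v none, s.P) (adj.get v) >>= fun q =>
    lenP (adj.get v) >>= fun k => num (s.vo + k + 1) >>= fun vo =>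
      num (s.cn + if fr.get v = true then 1 else 0) >>= fun cn =>
        pure ⟨q.1, q.2, s.S.set v true, s.D.set v d, l, cn, vo⟩

/-- One step of the search up to radius `ρ`. -/
noncomputable def extStep (adj : AL) (rm fr : Arr Bool) (ρ : ℕ) (s : DS) : M (DS ⊕ DS) :=
  s.Q.min.elim (pure (.inr s)) fun p => if p.1 ≤ ρ then
    settle adj rm fr s p.2 p.1 ((p.2, s.P.get p.2) :: s.l) >>= fun s' => pure (.inl s')
  else pure (.inr s)

section impl
variable {α : Type} [Rep α]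

@[fun_prop] theorem grow_better {o : α → Option (ℕ × ℕ)} {k : α → ℕ} (h1 : Pure o) (h2 : Pure k) :
    Grow fun x => better (o x) (k x) := Pure.grow (by unfold better; fun_prop)

@[fun_prop] theorem impl_relax {rm S : α → Arr Bool} {v d : α → ℕ} {q : α → MinArr × Arr (ℕ × WE)}
    {y : α → ℕ × WE} (h1 : Pure rm) (h2 : Pure S) (h3 : Pure v) (h4 : Pure d) (h5 : Pure q)
    (h6 : Pure y) : Impl fun x => relax (rm x) (S x) (v x) (d x) (q x) (y x) := by
  unfold relax
  fun_prop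

@[fun_prop] theorem impl_settle {adj : α → AL} {rm fr : α → Arr Bool} {s : α → DS} {v d : α → ℕ}
    {l : α → List Rec} (h1 : Pure adj) (h2 : Pure rm) (h3 : Pure fr) (h4 : Pure s) (h5 : Pure v)
    (h6 : Pure d) (h7 : Pure l) :
    Impl fun x => settle (adj x) (rm x) (fr x) (s x) (v x) (d x) (l x) := by
  unfold settle
  fun_prop

@[fun_prop] theorem impl_extStep {adj : α → AL} {rm fr : α → Arr Bool} {ρ : α → ℕ} {s : α → DS}
    (h1 : Pure adj) (h2 : Pure rm) (h3 : Pure fr) (h4 : Pure ρ) (h5 : Pure s) :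
    Impl fun x => extStep (adj x) (rm x) (fr x) (ρ x) (s x) := by
  unfold extStep
  fun_prop

end impl

open Classical in
/-- The sum of `f` over the vertices in `T`. -/
noncomputable def sv (vs : List ℕ) (f : ℕ → ℕ) (T : ℕ → Prop) : ℕ :=
  ∑ v ∈ vs.toFinset, if T v then f v else 0

variable {vs : List ℕ} {f : ℕ → ℕ} {T T' T'' : ℕ → Prop}

theorem sv_mono (h : ∀ v ∈ vs, T v → T' v) : sv vs f T ≤ sv vs f T' :=
  sum_le_sum fun v hv => by
    have := h v (List.mem_toFinset.1 hv)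
    split_ifs <;> simp_all

theorem sv_congr (h : ∀ v ∈ vs, T v ↔ T' v) : sv vs f T = sv vs f T' :=
  le_antisymm (sv_mono fun v hv => (h v hv).1) (sv_mono fun v hv => (h v hv).2)

theorem sv_add (h : ∀ v ∈ vs, T v ↔ T' v ∨ T'' v) (hd : ∀ v ∈ vs, T' v → ¬ T'' v) :
    sv vs f T = sv vs f T' + sv vs f T'' := by
  unfold sv
  rw [← sum_add_distrib]
  refine sum_congr rfl fun v hv => ?_
  have := h v (List.mem_toFinset.1 hv)
  have := hd v (List.mem_toFinset.1 hv)
  split_ifs <;> simp_all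

theorem sv_single {v : ℕ} (hv : v ∈ vs) (p : Prop) [Decidable p] :
    sv vs f (fun u => u = v ∧ p) = if p then f v else 0 := by
  unfold sv
  rw [sum_eq_single v (fun u _ h => by simp [h]) (by simp [hv])]
  by_cases h : p <;> simp [h]

theorem sv_false (h : ∀ v ∈ vs, ¬ T v) : sv vs f T = 0 :=
  sum_eq_zero fun v hv => if_neg (h v (List.mem_toFinset.1 hv))

/-- The weight of a vertex. -/
def dg (adj : AL) (v : ℕ) : ℕ := (adj.get v).length + 1

/-- The data of a search. -/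
structure Env (B L : ℕ) (vs : List ℕ) (G : List WE) (adj : AL) : Prop where
  mem : ∀ v y e, (y, e) ∈ adj.get v ↔ e ∈ G ∧ Jn e v y
  ends : ∀ e ∈ G, e.1 ∈ vs ∧ e.2.1 ∈ vs ∧ e.2.2.1 ≤ L
  tot : sv vs (dg adj) (fun _ => True) ≤ B

/-- The entries of the queue. -/
def QOK (G : List WE) (rm S : Arr Bool) (D : Arr ℕ) (cur : ℕ) (q : MinArr × Arr (ℕ × WE)) : Prop :=
  ∀ y p, q.1.get y = some p → p.2 = y ∧ cur ≤ p.1 ∧ ¬ S.get y = true ∧ ¬ rm.get y = true ∧
    S.get (q.2.get y).1 = true ∧ (q.2.get y).2 ∈ G ∧ Jn (q.2.get y).2 (q.2.get y).1 y ∧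
    p.1 = D.get (q.2.get y).1 + (q.2.get y).2.2.2.1

/-- `y` has distance or key at most `k`. -/
def Seen (S : Arr Bool) (D : Arr ℕ) (Q : MinArr) (y k : ℕ) : Prop :=
  (S.get y = true ∧ D.get y ≤ k) ∨ ∃ p, Q.get y = some p ∧ p.1 ≤ k

/-- The invariant of a search from `c`. -/
structure DI (vs : List ℕ) (G : List WE) (adj : AL) (rm fr : Arr Bool) (c cur : ℕ) (s : DS) :
    Prop where
  q : QOK G rm s.S s.D cur (s.Q, s.P)
  seen : ∀ v y e, s.S.get v = true → e ∈ G → Jn e v y → ¬ rm.get y = true →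
    Seen s.S s.D s.Q y (s.D.get v + e.2.2.1)
  le : ∀ v, s.S.get v = true → s.D.get v ≤ cur ∧ ¬ rm.get v = true ∧ v ∈ vs
  tl : TL G c s.D.get s.l
  mem : ∀ v, s.S.get v = true ↔ v ∈ Cl.vs (c, s.l)
  d0 : s.D.get c = 0
  cn : s.cn = sv vs (fun _ => 1) fun v => s.S.get v = true ∧ fr.get v = true
  vo : s.vo = sv vs (dg adj) fun v => s.S.get v = true

variable {c : Cx} {L : ℕ} {G : List WE} {adj : AL} {rm fr S : Arr Bool} {D : Arr ℕ}

theorem relax_tri {v d : ℕ} {xs : List (ℕ × WE)} (hx : ∀ x ∈ xs, x.2 ∈ G ∧ Jn x.2 v x.1 ∧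
    d + x.2.2.2.1 ≤ c.B) (hv : S.get v = true) (hd : D.get v = d)
    (hS : ∀ y, S.get y = true → D.get y ≤ d) {q : MinArr × Arr (ℕ × WE)}
    (hq : QOK G rm S D d q) : Tri c (foldM (relax rm S v d) q xs) fun q' t =>
      QOK G rm S D d q' ∧ (∀ y k, Seen S D q.1 y k → Seen S D q'.1 y k) ∧
      (∀ x ∈ xs, ¬ rm.get x.1 = true → Seen S D q'.1 x.1 (d + x.2.2.2.1)) ∧ t = xs.length := by
  refine Tri.foldM (fun (pre : List (ℕ × WE)) (q' : MinArr × Arr (ℕ × WE)) t => QOK G rm S D d q' ∧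
    (∀ y k, Seen S D q.1 y k → Seen S D q'.1 y k) ∧
    (∀ x ∈ pre, ¬ rm.get x.1 = true → Seen S D q'.1 x.1 (d + x.2.2.2.1)) ∧ t = pre.length)
    ⟨hq, fun _ _ h => h, by simp, rfl⟩ ?_
  rintro pre x rest q' t rfl ⟨a1, a2, a3, rfl⟩
  obtain ⟨b1, b2, b3⟩ := hx x (by simp)
  simp only [relax, Tri_ite, Tri_pure, Tri_bind, Tri_num, List.length_append, List.length_singleton,
    List.mem_append, List.mem_singleton, add_zero, and_true]
  refine ⟨fun h => ⟨a1, a2, ?_⟩, fun h => ⟨b3, fun h' => ?_, fun h' => ⟨a1, a2, ?_⟩⟩⟩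
  · rintro y (hy | rfl) hr
    · exact a3 y hy hr
    · exact Or.inl ⟨h.resolve_left hr, (hS _ (h.resolve_left hr)).trans (Nat.le_add_right _ _)⟩
  · have m : ∀ y k, Seen S D q'.1 y k → Seen S D (q'.1.set x.1 (some (d + x.2.2.2.1, x.1))) y k := by
      rintro y k (e | ⟨p, e1, e2⟩)
      · exact Or.inl e
      · by_cases hy : y = x.1
        · subst hy
          rw [e1] at h'
          simp only [better, Option.elim_some, decide_eq_true_eq] at h'
          exact Or.inr ⟨_, MinArr.get_set_self _ _ _, by simp only; omega⟩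
        · exact Or.inr ⟨p, by rw [MinArr.get_set_ne _ hy, e1], e2⟩
    refine ⟨fun y p hp => ?_, fun y k e => m y k (a2 y k e), ?_⟩
    · simp only [MinArr.get_set, Arr.get_set] at hp ⊢
      split_ifs at hp ⊢ with e
      · obtain rfl := Option.some.inj hp
        subst e
        exact ⟨rfl, Nat.le_add_right _ _, fun e => h (Or.inr e), fun e => h (Or.inl e), hv, b1, b2,
          by rw [hd]⟩
      · exact a1 y p hp
    · rintro y (hy | rfl) hr
      · exact m _ _ (a3 y hy hr)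
      · exact Or.inr ⟨_, MinArr.get_set_self _ _ _, le_rfl⟩
  · rintro y (hy | rfl) hr
    · exact a3 y hy hr
    · rcases e : q'.1.get y.1 with _ | p
      · simp [e, better] at h'
      · exact Or.inr ⟨p, e, by simpa [e, better] using h'⟩

theorem Env.vs_of (h : Env c.B L vs G adj) {e : WE} {a b : ℕ} (he : e ∈ G) (hj : Jn e a b) :
    b ∈ vs := by
  rcases hj with ⟨-, rfl⟩ | ⟨rfl, -⟩
  · exact (h.ends e he).2.1
  · exact (h.ends e he).1

theorem sv_one_le (adj : AL) (T : ℕ → Prop) :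
    sv vs (fun _ => 1) T ≤ sv vs (dg adj) fun _ => True :=
  sum_le_sum fun v _ => by unfold dg; split_ifs <;> simp_all

theorem settle_tri (h : Env c.B L vs G adj) {s : DS} {x v d : ℕ} {l : List Rec} (hv : v ∈ vs)
    (hvS : ¬ s.S.get v = true) (hvr : ¬ rm.get v = true) (hB : d + L ≤ c.B)
    (hq : QOK G rm s.S s.D d (s.Q, s.P)) (hk : ∀ p, s.Q.get v = some p → d ≤ p.1)
    (hseen : ∀ v y e, s.S.get v = true → e ∈ G → Jn e v y → ¬ rm.get y = true →
      Seen s.S s.D s.Q y (s.D.get v + e.2.2.1))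
    (hle : ∀ v, s.S.get v = true → s.D.get v ≤ d ∧ ¬ rm.get v = true ∧ v ∈ vs)
    (htl : TL G x (s.D.set v d).get l) (hm : ∀ u, u ∈ Cl.vs (x, l) ↔ u = v ∨ s.S.get u = true)
    (h0 : (s.D.set v d).get x = 0)
    (hcn : s.cn = sv vs (fun _ => 1) fun v => s.S.get v = true ∧ fr.get v = true)
    (hvo : s.vo = sv vs (dg adj) fun v => s.S.get v = true) :
    Tri c (settle adj rm fr s v d l) fun s' t => DI vs G adj rm fr x d s' ∧
      s'.S = s.S.set v true ∧ s'.D = s.D.set v d ∧ s.vo < s'.vo ∧ t + 2 * s.vo + 2 ≤ 2 * s'.vo := by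
  have hS : ∀ u, (s.S.set v true).get u = true ↔ u = v ∨ s.S.get u = true := fun u => by
    rw [Arr.get_set]; split_ifs with e <;> simp [e]
  have hD : ∀ u, s.S.get u = true → (s.D.set v d).get u = s.D.get u := fun u hu =>
    Arr.get_set_ne _ (fun e : u = v => hvS (e ▸ hu)) _
  have hle' : ∀ u, (s.S.set v true).get u = true →
      (s.D.set v d).get u ≤ d ∧ ¬ rm.get u = true ∧ u ∈ vs := fun u hu => by
    rcases (hS u).1 hu with rfl | e
    · exact ⟨by simp, hvr, hv⟩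
    · rw [hD u e]; exact hle u e
  have e1 : s.vo + (adj.get v).length + 1 =
      sv vs (dg adj) fun u => (s.S.set v true).get u = true := by
    rw [sv_add (T' := fun u => s.S.get u = true) (T'' := fun u => u = v ∧ True)
      (fun u _ => by rw [hS]; tauto) (fun u _ a b => hvS (b.1 ▸ a)), sv_single hv, hvo]
    simp [dg, add_assoc]
  have e2 : (s.cn + if fr.get v = true then 1 else 0) = sv vs (fun _ => 1)
      fun u => (s.S.set v true).get u = true ∧ fr.get u = true := by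
    rw [sv_add (T' := fun u => s.S.get u = true ∧ fr.get u = true)
      (T'' := fun u => u = v ∧ fr.get v = true) (fun u _ => by rw [hS]; aesop)
      (fun u _ a b => hvS (b.1 ▸ a.1)), sv_single hv, hcn]
  have e3 : s.vo + (adj.get v).length + 1 ≤ c.B := e1 ▸ (sv_mono fun _ _ _ => trivial).trans h.tot
  refine (relax_tri (G := G) (D := s.D.set v d) (fun y hy => ?_) (by simp) (by simp)
    (fun y hy => (hle' y hy).1) fun y p hp => ?_).bind ?_
  · obtain ⟨b1, b2⟩ := (h.mem v y.1 y.2).1 hy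
    exact ⟨b1, b2, by have := (h.ends _ b1).2.2; omega⟩
  · rw [MinArr.get_set] at hp
    split_ifs at hp with e
    obtain ⟨a1, a2, a3, a4, a5, a6, a7, a8⟩ := hq y p hp
    exact ⟨a1, a2, by rw [hS]; tauto, a4, (hS _).2 (Or.inr a5), a6, a7, by rw [hD _ a5]; exact a8⟩
  rintro q t ⟨a1, a2, a3, rfl⟩
  simp only [Tri_bind, Tri_lenP, Tri_num, Tri_pure, true_and]
  refine ⟨by omega, e3, e2 ▸ (sv_one_le adj _).trans h.tot,
    ⟨a1, fun u y e hu he hj hr => ?_, hle', htl, fun u => by rw [hS, hm], h0, e2, e1⟩,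
    by omega, by omega⟩
  rcases (hS u).1 hu with rfl | hu
  · simpa using a3 (y, e) ((h.mem _ _ _).2 ⟨he, hj⟩) hr
  · refine a2 _ _ ?_
    show Seen _ _ _ y ((s.D.set v d).get u + e.2.2.1)
    rw [hD u hu]
    rcases hseen u y e hu he hj hr with ⟨b1, b2⟩ | ⟨p, b1, b2⟩
    · exact Or.inl ⟨(hS _).2 (Or.inr b1), by rwa [hD _ b1]⟩
    · by_cases hy : y = v
      · subst hy
        exact Or.inl ⟨by simp, by simpa using (hk p b1).trans b2⟩
      · exact Or.inr ⟨p, by rw [MinArr.get_set_ne _ hy, b1], b2⟩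

/-- The search is continued up to radius `ρ`. -/
theorem ext_tri (h : Env c.B L vs G adj) {s : DS} {x cur ρ n : ℕ} (hB : ρ + L ≤ c.B)
    (hs : DI vs G adj rm fr x cur s) (hρ : cur ≤ ρ) (hn : sv vs (dg adj) (fun _ => True) < n) :
    Tri c (loopM (extStep adj rm fr ρ) n s) fun s' t => DI vs G adj rm fr x ρ s' ∧
      (∀ y p, s'.Q.get y = some p → ρ < p.1) ∧
      (∀ v, s.S.get v = true → s'.S.get v = true ∧ s'.D.get v = s.D.get v) ∧
      t + 2 * s.vo ≤ 2 * s'.vo := by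
  refine Tri.loopM (fun s' t => (∃ k ≤ ρ, DI vs G adj rm fr x k s') ∧
    (∀ v, s.S.get v = true → s'.S.get v = true ∧ s'.D.get v = s.D.get v) ∧
    t + 2 * s.vo ≤ 2 * s'.vo) (fun s' => sv vs (dg adj) (fun _ => True) - s'.vo) ?_
    ⟨⟨cur, hρ, hs⟩, fun _ h => ⟨h, rfl⟩, by omega⟩ (by omega)
  rintro s' t ⟨⟨k, hk, a⟩, a2, a3⟩
  have fin : (∀ y p, s'.Q.get y = some p → ρ < p.1) → DI vs G adj rm fr x ρ s' := fun hq =>
    ⟨fun y p hp => by
      obtain ⟨b1, -, b2⟩ := a.q y p hp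
      exact ⟨b1, (hq y p hp).le, b2⟩, a.seen, fun v hv => ⟨(a.le v hv).1.trans hk, (a.le v hv).2⟩,
      a.tl, a.mem, a.d0, a.cn, a.vo⟩
  unfold extStep
  rcases e : s'.Q.min with _ | p
  · have hq : ∀ y p, s'.Q.get y = some p → ρ < p.1 := fun y p hp => by
      simp [MinArr.min_eq_none e] at hp
    simp only [Option.elim_none, Tri_pure, Sum.elim_inr, add_zero]
    exact ⟨fin hq, hq, a2, a3⟩
  obtain ⟨⟨i, hi⟩, hmin⟩ := MinArr.min_eq_some e
  simp only [Option.elim_some, Tri_ite, Tri_pure, Sum.elim_inr, add_zero]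
  refine ⟨fun hp => ?_, fun hp => ?_⟩
  swap
  · have hq : ∀ y q, s'.Q.get y = some q → ρ < q.1 := fun y q hq =>
      (not_le.1 hp).trans_le (Key.fst_le (hmin y q hq))
    exact ⟨fin hq, hq, a2, a3⟩
  obtain ⟨rfl, b2, b3, b4, b5, b6, b7, b8⟩ := a.q i p hi
  have hD : ∀ u, s'.S.get u = true → (s'.D.set p.2 p.1).get u = s'.D.get u := fun u hu =>
    Arr.get_set_ne _ (fun e : u = p.2 => b3 (e ▸ hu)) _
  refine (settle_tri (x := x) (fr := fr) (l := (p.2, s'.P.get p.2) :: s'.l) h (h.vs_of b6 b7) b3 b4 (by omega) (fun y q hq => ?_)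
    (fun q hq => Key.fst_le (hmin _ q hq)) a.seen
    (fun v hv => ⟨(a.le v hv).1.trans b2, (a.le v hv).2⟩)
    ⟨a.tl.congr fun v hv => hD v ((a.mem v).2 hv), fun e => b3 ((a.mem _).2 e), (a.mem _).1 b5, b6,
      b7, by rw [Arr.get_set_self, hD _ b5]; exact b8⟩
    (fun u => by rw [mem_vs_cons, a.mem]) ?_ a.cn a.vo).bind ?_
  · obtain ⟨d1, -, d2⟩ := a.q y q hq
    exact ⟨d1, (Key.fst_le (hmin y q hq)), d2⟩
  · rw [hD _ ((a.mem x).2 (by simp [Cl.vs])), a.d0]
  · rintro s'' t' ⟨d1, d2, d3, d4, d5⟩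
    have : s''.vo ≤ sv vs (dg adj) fun _ => True := d1.vo ▸ sv_mono fun _ _ _ => trivial
    simp only [Tri_pure, Sum.elim_inl]
    refine ⟨⟨⟨_, hp, d1⟩, fun v hv => ?_, by omega⟩, by omega⟩
    rw [d2, d3, hD v (a2 v hv).1, Arr.get_set]
    exact ⟨by simp [(a2 v hv).1], (a2 v hv).2⟩

end Vale.Agent.P305CV
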