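import Vale.Agent.P305CV.Cover

/-!
# Sparse covers at all scales
-/

namespace Vale.Agent.P305CV

open Vale.Agent.P305E Finset

/-- The scales. -/
def PS (b s : ℕ) : ℕ := (16 * b + 16) ^ s

theorem PS_succ (b s : ℕ) : PS b (s + 1) = PS b s * (16 * b + 16) := pow_succ _ _
theorem PS_pos (b s : ℕ) : 1 ≤ PS b s := Nat.one_le_pow _ _ (by omega)
theorem PS_mono (b : ℕ) {s t : ℕ} (h : s ≤ t) : PS b s ≤ PS b t :=
  Nat.pow_le_pow_right (by omega) h

/-- Covers at the scales `0, …, D`: a list of pairs (scale, cluster). -/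
structure MCov (b D : ℕ) (G : List WE) (vs : List ℕ) (cs : List (ℕ × Cl)) : Prop where
  nodup : vs.Nodup
  mem : ∀ u, u ∈ vs ↔ ∃ e ∈ G, e.1 = u ∨ e.2.1 = u
  len : vs.length ≤ 2 * G.length
  sc : ∀ p ∈ cs, p.1 ≤ D
  sub : ∀ p ∈ cs, ∀ v ∈ p.2.vs, v ∈ vs
  tree : ∀ p ∈ cs, ∃ d, TL G p.2.1 d p.2.2 ∧ d p.2.1 = 0 ∧ ∀ v ∈ p.2.vs, 2 * d v ≤ PS b (p.1 + 1)
  sing : ∀ p ∈ cs, p.1 = 0 → p.2.2 = []
  zero : ∀ u ∈ vs, (0, u, []) ∈ cs
  pad : ∀ u ∈ vs, ∀ s, 1 ≤ s → s ≤ D →
    ∃ C, (s, C) ∈ cs ∧ ∀ z, Wk G u z (2 * PS b s) → z ∈ C.vs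
  few : ∀ s u, cs.countP (fun p => p.1 = s ∧ u ∈ p.2.vs) ≤ b + 1

/-- A vertex is added to a list without repetitions. -/
def addV (q : Arr Bool × List ℕ) (u : ℕ) : Arr Bool × List ℕ :=
  if q.1.get u = true then q else (q.1.set u true, u :: q.2)

/-- The ends of the edges. -/
def vertsP (G : List WE) : M (List ℕ) :=
  foldP (fun q e => addV (addV q e.1) e.2.1) (.const false, []) G >>= fun q => pure q.2

/-- The program of `cover`. -/
noncomputable def covF : ℕ × ℕ × List ℕ × List WE → M (List Cl) := cover.choose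

/-- One more scale. -/
noncomputable def scaleP (b : ℕ) (vs : List ℕ) (G : List WE) (q : ℕ × List (ℕ × Cl)) (s : ℕ) :
    M (ℕ × List (ℕ × Cl)) :=
  num (q.1 * (16 * b + 16)) >>= fun P => num (2 * P) >>= fun r => num (s + 1) >>= fun s' =>
    covF (b, r, vs, G) >>= fun out => mapP (fun C => (s', C)) out >>= fun l =>
      appendP l q.2 >>= fun l' => pure (P, l')

/-- The vertices and the covers at all scales. -/
noncomputable def mcov (b D : ℕ) (G : List WE) : M (List ℕ × List (ℕ × Cl)) :=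
  vertsP G >>= fun vs => mapP (fun u => (0, u, [])) vs >>= fun c0 =>
    iterM (scaleP b vs G) (1, c0) D >>= fun q => pure (vs, q.2)

section impl
variable {α : Type} [Rep α]

@[fun_prop] theorem pure_addV {q : α → Arr Bool × List ℕ} {u : α → ℕ} (h1 : Pure q) (h2 : Pure u) :
    Pure fun x => addV (q x) (u x) := by
  unfold addV
  fun_prop

@[fun_prop] theorem impl_vertsP {G : α → List WE} (h : Pure G) : Impl fun x => vertsP (G x) := by
  unfold vertsP
  fun_prop

@[fun_prop] theorem impl_covF : Impl covF := cover.choose_spec.1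

@[fun_prop] theorem impl_mcov {b D : α → ℕ} {G : α → List WE} (h1 : Pure b) (h2 : Pure D)
    (h3 : Pure G) : Impl fun x => mcov (b x) (D x) (G x) := by
  unfold mcov scaleP
  fun_prop

end impl

variable {c : Cx}

theorem addV_ok {q : Arr Bool × List ℕ} (h : q.2.Nodup ∧ ∀ v, q.1.get v = true ↔ v ∈ q.2) (u : ℕ) :
    ((addV q u).2.Nodup ∧ ∀ v, (addV q u).1.get v = true ↔ v ∈ (addV q u).2) ∧
      (∀ v, v ∈ (addV q u).2 ↔ v = u ∨ v ∈ q.2) ∧ (addV q u).2.length ≤ q.2.length + 1 := by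
  unfold addV
  split_ifs with e
  · exact ⟨h, fun v => ⟨Or.inr, fun a => a.elim (fun a => a ▸ (h.2 u).1 e) id⟩, by omega⟩
  · refine ⟨⟨List.nodup_cons.2 ⟨fun a => e ((h.2 u).2 a), h.1⟩, fun v => ?_⟩, by simp, by simp⟩
    rw [Arr.get_set]
    split_ifs with a <;> simp [a, h.2]

theorem vertsP_tri (G : List WE) : Tri c (vertsP G) fun vs t => vs.Nodup ∧
    (∀ u, u ∈ vs ↔ ∃ e ∈ G, e.1 = u ∨ e.2.1 = u) ∧ vs.length ≤ 2 * G.length ∧ t = G.length := by
  have key : ∀ (G : List WE) (q q' : Arr Bool × List ℕ),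
      (q.2.Nodup ∧ ∀ v, q.1.get v = true ↔ v ∈ q.2) →
      G.foldl (fun q e => addV (addV q e.1) e.2.1) q = q' → q'.2.Nodup ∧
      (∀ u, u ∈ q'.2 ↔ u ∈ q.2 ∨ ∃ e ∈ G, e.1 = u ∨ e.2.1 = u) ∧
      q'.2.length ≤ q.2.length + 2 * G.length := by
    intro G
    induction G with
    | nil => rintro q _ h rfl; simpa using h.1
    | cons e G ih =>
      intro q q' h hq
      obtain ⟨a1, a2, a3⟩ := addV_ok h e.1
      obtain ⟨b1, b2, b3⟩ := addV_ok a1 e.2.1
      obtain ⟨d1, d2, d3⟩ := ih _ _ b1 hq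
      refine ⟨d1, fun u => ?_, by rw [List.length_cons]; omega⟩
      simp only [d2, b2, a2, List.mem_cons, exists_eq_or_imp, @eq_comm _ u]
      generalize (∃ e ∈ G, e.1 = u ∨ e.2.1 = u) = X
      tauto
  obtain ⟨h1, h2, h3⟩ := key G (.const false, []) _ (by simp) rfl
  simp only [vertsP, Tri_bind, Tri_foldP, Tri_pure]
  exact ⟨h1, by simpa only [List.not_mem_nil, false_or] using h2, by simpa using h3, rfl⟩

/-- Double counting. -/
theorem sum_len_le {β : Type} (f : β → List ℕ) (vs : List ℕ) (k : ℕ) (l : List β)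
    (h : ∀ C ∈ l, (f C).Nodup ∧ ∀ v ∈ f C, v ∈ vs)
    (hk : ∀ u, l.countP (fun C => u ∈ f C) ≤ k) :
    (l.map fun C => (f C).length).sum ≤ k * vs.length := by
  have key : ∀ l : List β, (∀ C ∈ l, (f C).Nodup ∧ ∀ v ∈ f C, v ∈ vs) →
      (l.map fun C => (f C).length).sum ≤ ∑ u ∈ vs.toFinset, l.countP fun C => u ∈ f C := by
    intro l h
    induction l with
    | nil => simp
    | cons C l ih =>
      have h1 := ih fun C hC => h C (List.mem_cons_of_mem _ hC)
      obtain ⟨h2, h3⟩ := h C List.mem_cons_self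
      have h4 : (f C).length ≤ ∑ u ∈ vs.toFinset, if u ∈ f C then 1 else 0 := by
        rw [← card_filter, ← List.toFinset_card_of_nodup h2]
        exact card_le_card fun v hv => by simpa using ⟨h3 v (by simpa using hv), by simpa using hv⟩
      simp only [List.map_cons, List.sum_cons, List.countP_cons, decide_eq_true_eq, sum_add_distrib]
      omega
  refine (key l h).trans ((sum_le_card_nsmul _ _ k fun u _ => hk u).trans ?_)
  rw [smul_eq_mul, mul_comm]
  exact Nat.mul_le_mul_left _ (List.toFinset_card_le _)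

theorem length_le_sum {β : Type} (f : β → ℕ) : ∀ l : List β,
    l.length ≤ (l.map fun C => f C + 1).sum
  | [] => by simp
  | C :: l => by
    have := length_le_sum f l
    simp only [List.length_cons, List.map_cons, List.sum_cons]
    omega

theorem mcov_tri {b D L : ℕ} {G : List WE} (hL : ∀ e ∈ G, e.2.2.1 ≤ L)
    (hb : 3 * G.length ≤ 2 ^ b) (hB : 2 ^ (b + 2) + (8 * b + 16) * PS b D + L + D ≤ c.B) :
    Tri c (mcov b D G) fun o t => MCov b D G o.1 o.2 ∧
      t ≤ 130 * (D + 1) * (b + 1) ^ 2 * (G.length + 1) := by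
  refine (vertsP_tri G).bind ?_
  rintro vs _ ⟨v1, v2, v3, rfl⟩
  simp only [Tri_bind, Tri_mapP, Tri_pure]
  refine (Tri.iterM (fun k (q : ℕ × List (ℕ × Cl)) t => q.1 = PS b k ∧ MCov b k G vs q.2 ∧
    t ≤ k * (127 * (b + 1) ^ 2 * (G.length + 1))) ⟨rfl, ⟨v1, v2, v3, by simp, ?_, ?_, by simp,
      fun u hu => List.mem_map.2 ⟨u, hu, rfl⟩, fun u _ s h1 h2 => by omega, fun s u => ?_⟩,
      by simp⟩ ?_).mono ?_
  · simp [Cl.vs]
  · simp only [List.mem_map, forall_exists_index, and_imp, forall_apply_eq_imp_iff₂]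
    exact fun u _ => ⟨fun _ => 0, trivial, rfl, by simp⟩
  · rw [List.countP_map]
    refine le_trans (List.countP_mono_left (q := fun v => v == u) fun v _ h => ?_)
      ((List.nodup_iff_count_le_one.1 v1 u).trans (by omega))
    simp only [Function.comp, Cl.vs, List.map_nil, List.mem_singleton, decide_eq_true_eq] at h
    simp [h.2]
  · rintro k ⟨P, cs⟩ t hk ⟨rfl, a, ht⟩
    have m : PS b (k + 1) ≤ PS b D := PS_mono b hk
    have m' : (4 * b + 8) * (2 * PS b (k + 1)) ≤ (8 * b + 16) * PS b D := by nlinarith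
    have m'' : 2 * PS b (k + 1) ≤ (4 * b + 8) * (2 * PS b (k + 1)) :=
      Nat.le_mul_of_pos_left _ (by omega)
    have hB' := le_trans (Nat.add_le_add_right (Nat.le_add_left _ _) D) hB
    have hB'' := le_trans (Nat.add_le_add_right (Nat.add_le_add_right (Nat.le_add_left _ _) L) D) hB
    simp only [scaleP, Tri_bind, Tri_num, ← PS_succ]
    refine ⟨by omega, by omega, by omega, (cover.choose_spec.2 c b _ L vs G v1
      (fun e he => ⟨(v2 _).2 ⟨e, he, Or.inl rfl⟩, (v2 _).2 ⟨e, he, Or.inr rfl⟩, hL e he⟩)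
      (by omega) (by omega)).mono ?_⟩
    rintro out t' ⟨o, ht'⟩
    have n1 := sum_len_le Cl.vs vs (b + 1) out (fun C hC => by
      obtain ⟨d, h, -⟩ := (o.cl C hC).tree
      exact ⟨h.nodup, (o.cl C hC).sub⟩) o.few
    have n2 : out.length ≤ (b + 1) * vs.length :=
      (length_le_sum (fun C : Cl => C.2.length) out).trans (by simpa [Cl.vs] using n1)
    simp only [Tri_mapP, Tri_appendP, Tri_pure, List.length_map, true_and]
    have mm : ∀ p, p ∈ out.map (fun C => (k + 1, C)) ++ cs ↔ (p.1 = k + 1 ∧ p.2 ∈ out) ∨ p ∈ cs := by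
      rintro ⟨s, C⟩
      simp only [List.mem_append, List.mem_map, Prod.mk.injEq]
      exact or_congr_left ⟨fun ⟨_, h1, h2, h3⟩ => ⟨h2.symm, h3 ▸ h1⟩, fun h => ⟨C, h.2, h.1.symm, rfl⟩⟩
    refine ⟨⟨v1, v2, v3, fun p hp => ?_, fun p hp => ?_, fun p hp => ?_, fun p hp h0 => ?_,
      fun u hu => (mm _).2 (Or.inr (a.zero u hu)), fun u hu s h1 h2 => ?_, fun s u => ?_⟩, ?_⟩
    · exact ((mm p).1 hp).elim (fun h => h.1.le) fun h => (a.sc p h).trans (Nat.le_succ _)
    · exact ((mm p).1 hp).elim (fun h => (o.cl _ h.2).sub) (a.sub p)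
    · refine ((mm p).1 hp).elim (fun h => ?_) (a.tree p)
      obtain ⟨d, h1, h2, h3⟩ := (o.cl _ h.2).tree
      refine ⟨d, h1, h2, fun v hv => ?_⟩
      have := h3 v hv
      rw [h.1, PS_succ b (k + 1)]
      nlinarith
    · exact ((mm p).1 hp).elim (fun h => by omega) fun h => a.sing p h h0
    · rcases Nat.lt_or_ge k s with h | h
      · obtain rfl : s = k + 1 := by omega
        obtain ⟨C, h3, h4⟩ := o.cov u hu
        exact ⟨C, (mm _).2 (Or.inl ⟨rfl, h3⟩), h4⟩
      · obtain ⟨C, h3, h4⟩ := a.pad u hu s h1 h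
        exact ⟨C, (mm _).2 (Or.inr h3), h4⟩
    · rw [List.countP_append, List.countP_map]
      by_cases h : s = k + 1
      · have e : cs.countP (fun p => p.1 = s ∧ u ∈ p.2.vs) = 0 :=
          List.countP_eq_zero.2 fun p hp => by
            have := a.sc p hp
            simp only [decide_eq_true_eq]
            omega
        rw [e]
        exact le_trans (List.countP_mono_left fun C _ h => by simp_all) (o.few u)
      · rw [List.countP_eq_zero.2 fun p hp => by simp [Ne.symm h], zero_add]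
        exact a.few s u
    · have n3 : (b + 1) * vs.length ≤ (b + 1) ^ 2 * (2 * G.length) := by
        rw [sq, mul_assoc]
        exact Nat.mul_le_mul_left _ (v3.trans (Nat.le_mul_of_pos_left _ (by omega)))
      have n4 : (b + 1) ^ 2 * (vs.length + G.length + 1) ≤ (b + 1) ^ 2 * (3 * G.length + 1) :=
        Nat.mul_le_mul_left _ (by omega)
      have n5 : 1 ≤ (b + 1) ^ 2 := Nat.one_le_pow _ _ (by omega)
      nlinarith
  · rintro ⟨P, cs⟩ t ⟨-, a, ht⟩
    refine ⟨a, ?_⟩
    have n5 : 1 ≤ (b + 1) ^ 2 := Nat.one_le_pow _ _ (by omega)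
    have n6 : G.length + 1 ≤ (b + 1) ^ 2 * (G.length + 1) := Nat.le_mul_of_pos_left _ n5
    nlinarith [Nat.zero_le (D * ((b + 1) ^ 2 * (G.length + 1)))]

variable {b D : ℕ} {G : List WE} {vs : List ℕ} {cs : List (ℕ × Cl)}

theorem countP_scales (u : ℕ) (cs : List (ℕ × Cl)) : ∀ D, (∀ p ∈ cs, p.1 < D) →
    cs.countP (fun p => u ∈ p.2.vs) =
      ∑ s ∈ range D, cs.countP fun p => p.1 = s ∧ u ∈ p.2.vs := by
  intro D h
  induction cs with
  | nil => simp
  | cons p cs ih =>
    simp only [List.countP_cons, decide_eq_true_eq, sum_add_distrib,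
      ih fun p hp => h p (List.mem_cons_of_mem _ hp)]
    congr 1
    rw [sum_eq_single p.1 (fun s _ e => by simp [Ne.symm e])
      (by simp [h p List.mem_cons_self])]
    simp

/-- Every vertex lies in few clusters. -/
theorem MCov.all (h : MCov b D G vs cs) (u : ℕ) :
    cs.countP (fun p => u ∈ p.2.vs) ≤ (D + 1) * (b + 1) := by
  rw [countP_scales u cs (D + 1) fun p hp => Nat.lt_succ_of_le (h.sc p hp)]
  simpa using sum_le_card_nsmul (range (D + 1)) _ (b + 1) fun s _ => h.few s u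

theorem MCov.nd (h : MCov b D G vs cs) {p : ℕ × Cl} (hp : p ∈ cs) : p.2.vs.Nodup := by
  obtain ⟨d, h, -⟩ := h.tree p hp
  exact h.nodup

/-- The total size of the clusters. -/
theorem MCov.size (h : MCov b D G vs cs) :
    (cs.map fun p => p.2.2.length + 1).sum ≤ (D + 1) * (b + 1) * vs.length := by
  simpa [Cl.vs] using sum_len_le (fun p : ℕ × Cl => p.2.vs) vs _ cs
    (fun p hp => ⟨h.nd hp, h.sub p hp⟩) h.all

theorem MCov.length (h : MCov b D G vs cs) : cs.length ≤ (D + 1) * (b + 1) * vs.length :=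
  (length_le_sum _ cs).trans h.size

end Vale.Agent.P305CV
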